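import Mathlib

/-!
# P082: type II₁ central summands
-/

namespace Vale.Agent.P082.Central

universe u

variable {H : Type u} [NormedAddCommGroup H] [InnerProductSpace ℂ H] [CompleteSpace H]

/-- `z` is the unit of a type II₁ central summand of `M` (possibly zero): a central projection
below which normal tracial positive functionals separate and no nonzero projection has an abelian
corner. -/
structure IsTypeIIOneSummand (M : VonNeumannAlgebra H) (z : H →L[ℂ] H) : Prop where
  mem : z ∈ M
  proj : IsStarProjection z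
  central : ∀ x ∈ M, z * x = x * z
  traces : ∀ y ∈ M, z * y = y → y ≠ 0 → ∃ ξ : ℕ → H, Summable (fun n => ‖ξ n‖ ^ 2) ∧
    (∀ x ∈ M, ∑' n, ‖star x (ξ n)‖ ^ 2 = ∑' n, ‖x (ξ n)‖ ^ 2) ∧ ∃ n, y (ξ n) ≠ 0
  noAbelian : ∀ p ∈ M, IsStarProjection p → z * p = p → p ≠ 0 →
    ∃ x ∈ M, ∃ y ∈ M, (p * x * p) * (p * y * p) ≠ (p * y * p) * (p * x * p)

end Vale.Agent.P082.Central
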