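import Vale.Agent.P082.Iface
import Vale.Agent.P082.Scope.Defs
import Vale.Agent.P082.Central.Defs

/-!
# P082: the algebra of a central summand
-/

namespace Vale.Agent.P082.Central

open scoped InnerProductSpace

universe u

variable {H : Type u} [NormedAddCommGroup H] [InnerProductSpace ℂ H] [CompleteSpace H]

/-- The range of an idempotent `z`, as the kernel of `1 - z`. -/
abbrev cSpace (z : H →L[ℂ] H) : Submodule ℂ H :=
  LinearMap.ker (((1 : H →L[ℂ] H) - z) : H →ₗ[ℂ] H)

omit [CompleteSpace H] in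
theorem mem_cSpace {z : H →L[ℂ] H} {v : H} : v ∈ cSpace z ↔ z v = v := by
  rw [LinearMap.mem_ker]
  show v - z v = 0 ↔ _
  rw [sub_eq_zero, eq_comm]

instance completeSpace_cSpace (z : H →L[ℂ] H) : CompleteSpace (cSpace z) :=
  (ContinuousLinearMap.isClosed_ker ((1 : H →L[ℂ] H) - z)).completeSpace_coe

variable {z : H →L[ℂ] H} (hz : IsStarProjection z)

omit [CompleteSpace H] in
theorem apply_coe (v : cSpace z) : z (v : H) = v := mem_cSpace.1 v.2

theorem apply_apply (hz : IsStarProjection z) (v : H) : z (z v) = z v :=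
  congrArg (fun f : H →L[ℂ] H => f v) hz.isIdempotentElem.eq

theorem inner_z (hz : IsStarProjection z) (v w : H) : ⟪z v, w⟫_ℂ = ⟪v, z w⟫_ℂ := by
  have := hz.isSelfAdjoint.star_eq
  rw [ContinuousLinearMap.star_eq_adjoint] at this
  conv_lhs => rw [← this]
  rw [ContinuousLinearMap.adjoint_inner_left]

/-- `z` as a map onto its range. -/
noncomputable def toC : H →L[ℂ] cSpace z :=
  z.codRestrict (cSpace z) fun v => mem_cSpace.2 (apply_apply hz v)

theorem coe_toC (v : H) : (toC hz v : H) = z v := rfl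

theorem toC_coe (v : cSpace z) : toC hz (v : H) = v := Subtype.ext (apply_coe v)

theorem norm_toC_le (v : H) : ‖toC hz v‖ ≤ ‖v‖ := by
  show ‖z v‖ ≤ ‖v‖
  refine (z.le_opNorm v).trans (mul_le_of_le_one_left (norm_nonneg v) ?_)
  exact hz.norm_le

/-- The compression of an operator to the range of `z`. -/
noncomputable def restr (x : H →L[ℂ] H) : cSpace z →L[ℂ] cSpace z :=
  (toC hz).comp (x.comp (cSpace z).subtypeL)

theorem coe_restr_apply (x : H →L[ℂ] H) (v : cSpace z) : (restr hz x v : H) = z (x v) := rfl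

/-- An operator of the range of `z`, on the whole space. -/
noncomputable def ext (T : cSpace z →L[ℂ] cSpace z) : H →L[ℂ] H :=
  (cSpace z).subtypeL.comp (T.comp (toC hz))

theorem ext_apply (T : cSpace z →L[ℂ] cSpace z) (v : H) : ext hz T v = (T (toC hz v) : H) := rfl

theorem restr_ext (T : cSpace z →L[ℂ] cSpace z) : restr hz (ext hz T) = T :=
  ContinuousLinearMap.ext fun v => Subtype.ext <| by
    rw [coe_restr_apply, ext_apply, toC_coe, apply_coe]

theorem ext_restr {x : H →L[ℂ] H} (hx : Commute z x) : ext hz (restr hz x) = z * x :=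
  ContinuousLinearMap.ext fun v => by
    rw [ext_apply, coe_restr_apply, coe_toC, mul_apply_eq_comp]
    rw [← mul_apply_eq_comp x z, ← hx.eq, mul_apply_eq_comp, apply_apply hz]

theorem mul_ext (T : cSpace z →L[ℂ] cSpace z) : z * ext hz T = ext hz T :=
  ContinuousLinearMap.ext fun v => by
    rw [mul_apply_eq_comp, ext_apply, apply_coe]

theorem ext_mul (S T : cSpace z →L[ℂ] cSpace z) : ext hz (S * T) = ext hz S * ext hz T :=
  ContinuousLinearMap.ext fun v => by
    rw [mul_apply_eq_comp, ext_apply, ext_apply, ext_apply, toC_coe]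
    rfl

theorem restr_mul {x : H →L[ℂ] H} (hx : Commute z x) (y : H →L[ℂ] H) :
    restr hz (x * y) = restr hz x * restr hz y :=
  ContinuousLinearMap.ext fun v => Subtype.ext <| by
    rw [mul_apply_eq_comp, coe_restr_apply, coe_restr_apply, coe_restr_apply, mul_apply_eq_comp]
    rw [← mul_apply_eq_comp x z, ← hx.eq, mul_apply_eq_comp, apply_apply hz]

theorem star_restr (x : H →L[ℂ] H) : star (restr hz x) = restr hz (star x) := by
  refine ((ContinuousLinearMap.eq_adjoint_iff _ _).2 fun a b => ?_).symm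
  rw [Submodule.coe_inner, Submodule.coe_inner, coe_restr_apply, coe_restr_apply, inner_z hz,
    apply_coe, ← inner_z hz, apply_coe, ContinuousLinearMap.star_eq_adjoint,
    ContinuousLinearMap.adjoint_inner_left]

theorem star_ext (T : cSpace z →L[ℂ] cSpace z) : star (ext hz T) = ext hz (star T) := by
  refine ((ContinuousLinearMap.eq_adjoint_iff _ _).2 fun a b => ?_).symm
  rw [ext_apply, ext_apply]
  have h1 : ∀ (v : cSpace z) (w : H), ⟪(v : H), w⟫_ℂ = ⟪v, toC hz w⟫_ℂ := fun v w => by
    rw [Submodule.coe_inner, coe_toC, ← inner_z hz, apply_coe]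
  have h2 : ∀ (v : cSpace z) (w : H), ⟪w, (v : H)⟫_ℂ = ⟪toC hz w, v⟫_ℂ := fun v w => by
    rw [Submodule.coe_inner, coe_toC, inner_z hz, apply_coe]
  rw [h1, h2, ContinuousLinearMap.star_eq_adjoint, ContinuousLinearMap.adjoint_inner_left]

theorem restr_add (x y : H →L[ℂ] H) : restr hz (x + y) = restr hz x + restr hz y := by
  rw [restr, restr, restr, ContinuousLinearMap.add_comp, ContinuousLinearMap.comp_add]

theorem restr_smul (c : ℂ) (x : H →L[ℂ] H) : restr hz (c • x) = c • restr hz x := by
  rw [restr, restr, ContinuousLinearMap.smul_comp, ContinuousLinearMap.comp_smul]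

theorem ext_add (S T : cSpace z →L[ℂ] cSpace z) : ext hz (S + T) = ext hz S + ext hz T := by
  rw [ext, ext, ext, ContinuousLinearMap.add_comp, ContinuousLinearMap.comp_add]

theorem ext_smul (c : ℂ) (T : cSpace z →L[ℂ] cSpace z) : ext hz (c • T) = c • ext hz T := by
  rw [ext, ext, ContinuousLinearMap.smul_comp, ContinuousLinearMap.comp_smul]

theorem norm_restr_le (x : H →L[ℂ] H) : ‖restr hz x‖ ≤ ‖x‖ :=
  ContinuousLinearMap.opNorm_le_bound _ (norm_nonneg _) fun v =>
    (norm_toC_le hz _).trans (x.le_opNorm _)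

theorem norm_ext_le (T : cSpace z →L[ℂ] cSpace z) : ‖ext hz T‖ ≤ ‖T‖ :=
  ContinuousLinearMap.opNorm_le_bound _ T.opNorm_nonneg fun v =>
    (T.le_opNorm _).trans (mul_le_mul_of_nonneg_left (norm_toC_le hz v) T.opNorm_nonneg)

/-- The algebra `Mz` on the range of `z`. -/
noncomputable def cAlg (M : VonNeumannAlgebra H) : VonNeumannAlgebra (cSpace z) where
  toStarSubalgebra := StarSubalgebra.centralizer ℂ (restr hz '' (M.commutant : Set (H →L[ℂ] H)))
  centralizer_centralizer' := Set.centralizer_centralizer_centralizer _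

variable {M : VonNeumannAlgebra H} (hM : z ∈ M) (hc : ∀ x ∈ M, z * x = x * z)

include hM hc in
theorem restr_mem {x : H →L[ℂ] H} (hx : x ∈ M) : restr hz x ∈ cAlg hz M := by
  change restr hz x ∈ StarSubalgebra.centralizer ℂ _
  rw [StarSubalgebra.mem_centralizer_iff]
  rintro _ ⟨y, hy, rfl⟩
  have key : ∀ y ∈ M.commutant, restr hz y * restr hz x = restr hz x * restr hz y := by
    intro y hy
    have hyc := VonNeumannAlgebra.mem_commutant_iff.1 hy
    rw [← restr_mul hz (hyc z hM) x, ← restr_mul hz (hc x hx) y, hyc x hx]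
  exact ⟨key y hy, by rw [star_restr]; exact key _ (star_mem hy)⟩

include hM in
theorem ext_mem {T : cSpace z →L[ℂ] cSpace z} (hT : T ∈ cAlg hz M) : ext hz T ∈ M := by
  rw [← VonNeumannAlgebra.commutant_commutant M, VonNeumannAlgebra.mem_commutant_iff]
  intro y hy
  change T ∈ StarSubalgebra.centralizer ℂ _ at hT
  rw [StarSubalgebra.mem_centralizer_iff] at hT
  have h1 := (hT _ ⟨y, hy, rfl⟩).1
  have hyz : z * y = y * z := VonNeumannAlgebra.mem_commutant_iff.1 hy z hM
  refine ContinuousLinearMap.ext fun v => ?_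
  have h2 := congrArg (fun S : cSpace z →L[ℂ] cSpace z => (S (toC hz v) : H)) h1
  simp only [mul_apply_eq_comp, coe_restr_apply] at h2
  rw [mul_apply_eq_comp, mul_apply_eq_comp, ext_apply, ext_apply]
  rw [← apply_coe (z := z) (T (toC hz v)), ← mul_apply_eq_comp y z, ← hyz, mul_apply_eq_comp, h2]
  congr 2
  refine Subtype.ext ?_
  rw [coe_restr_apply, coe_toC, coe_toC, ← mul_apply_eq_comp y z, ← hyz, mul_apply_eq_comp,
    apply_apply hz]

end Vale.Agent.P082.Central
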