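import Vale.Agent.P082.Central.Defs
import Vale.Agent.P082.Scope.Sums

/-!
# P082: the maximal type II₁ central summand
-/

namespace Vale.Agent.P082.Central

open Scope

universe u

variable {H : Type u} [NormedAddCommGroup H] [InnerProductSpace ℂ H] [CompleteSpace H]
variable {M : VonNeumannAlgebra H}

/-- A central projection below a summand gives a summand. -/
theorem IsTypeIIOneSummand.of_le {w c : H →L[ℂ] H} (hw : IsTypeIIOneSummand M w) (hc : c ∈ M)
    (hcp : IsStarProjection c) (hcc : ∀ x ∈ M, c * x = x * c) (hwc : w * c = c) :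
    IsTypeIIOneSummand M c where
  mem := hc
  proj := hcp
  central := hcc
  traces y hy hcy hy0 := hw.traces y hy (by rw [← hcy, ← mul_assoc, hwc]) hy0
  noAbelian p hp hpp hcq hp0 := hw.noAbelian p hp hpp (by rw [← hcq, ← mul_assoc, hwc]) hp0

/-- Every von Neumann algebra has a largest type II₁ central summand. -/
theorem exists_max_summand (M : VonNeumannAlgebra H) :
    ∃ z, IsTypeIIOneSummand M z ∧ ∀ w, IsTypeIIOneSummand M w → w * z = w := by
  classical
  set S : Set (Set (H →L[ℂ] H)) :=
    {B | (∀ p ∈ B, IsTypeIIOneSummand M p) ∧ ∀ p ∈ B, ∀ q ∈ B, p ≠ q → p * q = 0} with hS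
  obtain ⟨B, ⟨hB1, hB2⟩, hmax⟩ := zorn_subset S fun c hc hchain => by
    refine ⟨⋃₀ c, ⟨?_, ?_⟩, fun a ha => Set.subset_sUnion_of_mem ha⟩
    · rintro p ⟨a, ha, hp⟩
      exact (hc ha).1 p hp
    · rintro p ⟨a, ha, hp⟩ q ⟨b, hb, hq⟩ hne
      rcases hchain.total ha hb with h | h
      · exact (hc hb).2 p (h hp) q hq hne
      · exact (hc ha).2 p hp q (h hq) hne
  have hd : IsDiag (fun i : B => i.1) fun i => i.1 :=
    { proj := fun i => (hB1 _ i.2).proj
      orth := fun i j hij => hB2 _ i.2 _ j.2 fun h => hij (Subtype.ext h)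
      left := fun i => (hB1 _ i.2).proj.isIdempotentElem.eq
      right := fun i => (hB1 _ i.2).proj.isIdempotentElem.eq
      norm_le := fun i => IsStarProjection.norm_le i.1 (hB1 _ i.2).proj }
  set z := hd.sum with hz
  have hzM : z ∈ M := hd.sum_mem fun i => (hB1 _ i.2).mem
  have hzp : IsStarProjection z := by
    refine ⟨?_, ?_⟩
    · show z * z = z
      rw [hz, hd.sum_mul hd]
      refine ContinuousLinearMap.ext fun v => ?_
      rw [IsDiag.sum_apply, IsDiag.sum_apply]
      exact tsum_congr fun i => congrArg (· v) (hB1 _ i.2).proj.isIdempotentElem.eq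
    · show star z = z
      rw [hz, hd.star_sum]
      refine ContinuousLinearMap.ext fun v => ?_
      rw [IsDiag.sum_apply, IsDiag.sum_apply]
      exact tsum_congr fun i => congrArg (· v) (hB1 _ i.2).proj.isSelfAdjoint.star_eq
  have hzc : ∀ x ∈ M, z * x = x * z := fun x hx => ContinuousLinearMap.ext fun v => by
    rw [mul_apply_eq_comp, mul_apply_eq_comp, hz, IsDiag.sum_apply, IsDiag.sum_apply,
      x.map_tsum (hd.summable v)]
    exact tsum_congr fun i => congrArg (fun A : H →L[ℂ] H => A v) ((hB1 _ i.2).central x hx)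
  have hpart : ∀ y, z * y = y → y ≠ 0 → ∃ i : B, i.1 * y ≠ 0 := by
    intro y hzy hy
    by_contra h
    push Not at h
    refine hy ?_
    rw [← hzy]
    refine ContinuousLinearMap.ext fun v => ?_
    rw [mul_apply_eq_comp, hz, IsDiag.sum_apply]
    refine (tsum_congr fun i => ?_).trans tsum_zero
    exact congrArg (fun A : H →L[ℂ] H => A v) (h i)
  have hII : IsTypeIIOneSummand M z :=
    { mem := hzM
      proj := hzp
      central := hzc
      traces := fun y hy hzy hy0 => by
        obtain ⟨i, hi⟩ := hpart y hzy hy0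
        obtain ⟨ξ, hs, htr, n, hn⟩ := (hB1 _ i.2).traces (i.1 * y)
          (mul_mem (hB1 _ i.2).mem hy)
          (by rw [← mul_assoc, (hB1 _ i.2).proj.isIdempotentElem.eq]) hi
        exact ⟨ξ, hs, htr, n, fun h0 => hn (by rw [mul_apply_eq_comp, h0, map_zero])⟩
      noAbelian := fun p hp hpp hzq hp0 => by
        obtain ⟨i, hi⟩ := hpart p hzq hp0
        have hq := hB1 _ i.2
        have hcomm : i.1 * p = p * i.1 := hq.central p hp
        have hid : i.1 * (i.1 * p) = i.1 * p := by
          rw [← mul_assoc, hq.proj.isIdempotentElem.eq]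
        have hproj : IsStarProjection (i.1 * p) := by
          refine ⟨?_, ?_⟩
          · show i.1 * p * (i.1 * p) = i.1 * p
            rw [hcomm, mul_assoc p, ← hcomm, hid, hcomm, ← mul_assoc, hpp.isIdempotentElem.eq]
          · show star (i.1 * p) = i.1 * p
            rw [star_mul, hq.proj.isSelfAdjoint.star_eq, hpp.isSelfAdjoint.star_eq, hcomm]
        obtain ⟨x, hx, y, hy, hxy⟩ := hq.noAbelian _ (mul_mem hq.mem hp) hproj hid hi
        refine ⟨x, hx, y, hy, fun h => hxy ?_⟩
        have key : ∀ x ∈ M, i.1 * p * x * (i.1 * p) = i.1 * (p * x * p) := fun x hx => by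
          rw [mul_assoc i.1 p x, mul_assoc i.1, ← mul_assoc (p * x), ← hq.central (p * x) (mul_mem hp hx),
            mul_assoc i.1 (p * x) p, ← mul_assoc i.1 i.1, hq.proj.isIdempotentElem.eq]
        have hmem : ∀ x ∈ M, p * x * p ∈ M := fun x hx => mul_mem (mul_mem hp hx) hp
        have pull : ∀ a ∈ M, ∀ b : H →L[ℂ] H, i.1 * a * (i.1 * b) = i.1 * (a * b) := fun a ha b => by
          rw [mul_assoc i.1, ← mul_assoc a, ← hq.central a ha, mul_assoc i.1 a b, ← mul_assoc i.1 i.1,
            hq.proj.isIdempotentElem.eq]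
        rw [key x hx, key y hy, pull _ (hmem x hx), pull _ (hmem y hy), h] }
  refine ⟨z, hII, fun w hw => ?_⟩
  set w' := w - w * z with hw'
  have hwz : z * w = w * z := hzc w hw.mem
  have hww : w * w' = w' := by
    rw [hw', mul_sub, ← mul_assoc, hw.proj.isIdempotentElem.eq]
  have hzw' : z * w' = 0 := by
    rw [hw', mul_sub, ← mul_assoc, hwz, mul_assoc, hzp.isIdempotentElem.eq, sub_self]
  have hw'M : w' ∈ M := sub_mem hw.mem (mul_mem hw.mem hzM)
  have hw'c : ∀ x ∈ M, w' * x = x * w' := fun x hx => by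
    rw [hw', sub_mul, mul_sub, mul_assoc, hzc x hx, ← mul_assoc, hw.central x hx, mul_assoc]
  have hw'p : IsStarProjection w' := by
    refine ⟨?_, ?_⟩
    · show w' * w' = w'
      conv_lhs => rw [hw', sub_mul, mul_assoc, hzw', mul_zero, sub_zero]
      exact hww
    · show star w' = w'
      rw [hw', star_sub, star_mul, hw.proj.isSelfAdjoint.star_eq, hzp.isSelfAdjoint.star_eq, hwz]
  have hs := hw.of_le hw'M hw'p hw'c hww
  have horth : ∀ i : B, i.1 * w' = 0 := fun i => by
    have hiz : i.1 * z = i.1 := ContinuousLinearMap.ext fun v => by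
      rw [mul_apply_eq_comp, hz, IsDiag.sum_apply, i.1.map_tsum (hd.summable v),
        tsum_eq_single i fun j hj => by
          rw [← mul_apply_eq_comp, hB2 _ i.2 _ j.2 fun h => hj (Subtype.ext h).symm, zero_apply],
        ← mul_apply_eq_comp, (hB1 _ i.2).proj.isIdempotentElem.eq]
    rw [← hiz, mul_assoc, hzw', mul_zero]
  have hin : insert w' B ∈ S := by
    refine ⟨?_, ?_⟩
    · rintro p (rfl | hp)
      exacts [hs, hB1 p hp]
    · rintro p (rfl | hp) q (rfl | hq) hne
      exacts [absurd rfl hne, by rw [hw'c q (hB1 q hq).mem]; exact horth ⟨q, hq⟩, horth ⟨p, hp⟩,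
        hB2 p hp q hq hne]
  have hmem : w' ∈ B := hmax hin (Set.subset_insert w' B) (Set.mem_insert w' B)
  have h0 := horth ⟨w', hmem⟩
  rw [hw'p.isIdempotentElem.eq] at h0
  exact (sub_eq_zero.1 h0).symm

end Vale.Agent.P082.Central
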