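import Vale.Agent.P082.Iface

/-!
# P082: the homotopy of a central idempotent

For a cocycle `f` and a central idempotent `p` the cocycles `p f` and `p f (p ·)` differ by a
coboundary.
-/

namespace Vale.Agent.P082.Central

open Finset

/-- Merge the entries `j` and `j + 1`. -/
def merge {α : Type*} [Mul α] (j : ℕ) (s : ℕ → α) (m : ℕ) : α :=
  if m < j then s m else if m = j then s m * s (m + 1) else s (m + 1)

/-- Insert `p` at `i`, multiplying the earlier entries by `p`. -/
def insertP {α : Type*} [Mul α] (p : α) (i : ℕ) (A : ℕ → α) (m : ℕ) : α :=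
  if m < i then p * A m else if m = i then p else A (m - 1)

/-- The telescoping double sum. -/
theorem sum_sum_telescope {E : Type*} [AddCommGroup E] [Module ℂ E] (hh : ℕ → E) (Y : ℕ → ℕ → E)
    (X : ℕ → ℕ → E) (hX : ∀ i j, X i j =
      if j + 1 < i then Y (i - 1) j else if j + 1 = i then hh i
        else if j = i then hh (i + 1) else Y i (j - 1)) :
    ∀ M : ℕ, ∑ i ∈ range (M + 2), (-1 : ℂ) ^ i • ∑ j ∈ range (M + 1), (-1 : ℂ) ^ (j + 1) • X i j =
      -∑ i ∈ range (M + 1), (-1 : ℂ) ^ i • ∑ j ∈ range M, (-1 : ℂ) ^ (j + 1) • Y i j := by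
  intro M
  induction M with
  | zero => simp [sum_range_succ, hX]
  | succ M ih =>
    have hrow : ∀ j ∈ range (M + 1), X (M + 2) j = Y (M + 1) j := fun j hj => by
      rw [mem_range] at hj
      rw [hX, if_pos (by omega)]
      rfl
    have hcorner : X (M + 2) (M + 1) = hh (M + 2) := by
      rw [hX, if_neg (by omega), if_pos (by omega)]
    have hcol : ∀ i ∈ range (M + 1), X i (M + 1) = Y i M := fun i hi => by
      rw [mem_range] at hi
      rw [hX, if_neg (by omega), if_neg (by omega), if_neg (by omega)]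
      rfl
    have hdiag : X (M + 1) (M + 1) = hh (M + 2) := by
      rw [hX, if_neg (by omega), if_neg (by omega), if_pos rfl]
    have e1 : ∑ i ∈ range (M + 3), (-1 : ℂ) ^ i •
          ∑ j ∈ range (M + 2), (-1 : ℂ) ^ (j + 1) • X i j =
        (∑ i ∈ range (M + 2), (-1 : ℂ) ^ i • ∑ j ∈ range (M + 1), (-1 : ℂ) ^ (j + 1) • X i j) +
          (∑ i ∈ range (M + 1), (-1 : ℂ) ^ i • (-1 : ℂ) ^ (M + 2) • Y i M +
            (-1 : ℂ) ^ (M + 1) • (-1 : ℂ) ^ (M + 2) • hh (M + 2)) +
          ((-1 : ℂ) ^ (M + 2) • ∑ j ∈ range (M + 1), (-1 : ℂ) ^ (j + 1) • Y (M + 1) j +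
            (-1 : ℂ) ^ (M + 2) • (-1 : ℂ) ^ (M + 2) • hh (M + 2)) := by
      have c1 : ∑ i ∈ range (M + 2), (-1 : ℂ) ^ i • (-1 : ℂ) ^ (M + 2) • X i (M + 1) =
          ∑ i ∈ range (M + 1), (-1 : ℂ) ^ i • (-1 : ℂ) ^ (M + 2) • Y i M +
            (-1 : ℂ) ^ (M + 1) • (-1 : ℂ) ^ (M + 2) • hh (M + 2) := by
        rw [sum_range_succ, hdiag]
        congr 1
        exact sum_congr rfl fun i hi => by rw [hcol i hi]
      have cin : ∀ i, ∑ j ∈ range (M + 2), (-1 : ℂ) ^ (j + 1) • X i j =
          ∑ j ∈ range (M + 1), (-1 : ℂ) ^ (j + 1) • X i j + (-1 : ℂ) ^ (M + 2) • X i (M + 1) :=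
        fun i => sum_range_succ _ (M + 1)
      have crow : ∑ j ∈ range (M + 1), (-1 : ℂ) ^ (j + 1) • X (M + 2) j =
          ∑ j ∈ range (M + 1), (-1 : ℂ) ^ (j + 1) • Y (M + 1) j :=
        sum_congr rfl fun j hj => by rw [hrow j hj]
      rw [sum_range_succ _ (M + 2)]
      simp only [cin, smul_add, sum_add_distrib]
      rw [c1, hcorner, crow]
    have cy : ∀ i, ∑ j ∈ range (M + 1), (-1 : ℂ) ^ (j + 1) • Y i j =
        ∑ j ∈ range M, (-1 : ℂ) ^ (j + 1) • Y i j + (-1 : ℂ) ^ (M + 1) • Y i M :=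
      fun i => sum_range_succ _ M
    rw [e1, ih, sum_range_succ _ (M + 1),
      show (-1 : ℂ) ^ (M + 2) = -(-1 : ℂ) ^ (M + 1) by ring]
    simp only [cy, smul_add, sum_add_distrib, neg_smul, smul_neg, sum_neg_distrib]
    abel

universe u

variable {H : Type u} [NormedAddCommGroup H] [InnerProductSpace ℂ H] [CompleteSpace H]
variable {M : VonNeumannAlgebra H}

/-- The first `N` entries. -/
def res (N : ℕ) (s : ℕ → Alg M) : Fin N → Alg M := fun m => s m

theorem hochDiff_res {k : ℕ} (f : Cochain M k) (s : ℕ → Alg M) :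
    hochDiff f (res (k + 1) s) = s 0 * f (res k fun m => s (m + 1)) +
      ∑ j ∈ range k, (-1 : ℂ) ^ (j + 1) • f (res k (merge j s)) +
        (-1 : ℂ) ^ (k + 1) • (f (res k s) * s k) := by
  rw [hochDiff, ← Fin.sum_univ_eq_sum_range (fun j => (-1 : ℂ) ^ (j + 1) • f (res k (merge j s)))]
  congr 2

theorem merge_insertP {α : Type*} [Monoid α] {p : α} (hp : p * p = p) (hc : ∀ x, p * x = x * p)
    (A : ℕ → α) (i j : ℕ) : merge j (insertP p i A) =
      if j + 1 < i then insertP p (i - 1) (merge j A)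
      else if j + 1 = i then fun m => if m < i then p * A m else A m
      else if j = i then fun m => if m < i + 1 then p * A m else A m
      else insertP p i (merge (j - 1) A) := by
  have hpp : ∀ a b : α, p * a * (p * b) = p * (a * b) := fun a b => by
    rw [mul_assoc, ← mul_assoc a, ← hc a, mul_assoc p a, ← mul_assoc, hp]
  have hpr : ∀ a : α, p * a * p = p * a := fun a => by
    rw [mul_assoc, ← hc a, ← mul_assoc, hp]
  funext m
  rcases Nat.lt_or_ge (j + 1) i with h1 | h1
  · rw [if_pos h1]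
    simp only [merge, insertP]
    split_ifs <;> first
      | omega
      | rfl
      | exact hpp _ _
      | (congr 1; omega)
  rw [if_neg (by omega)]
  rcases Nat.eq_or_lt_of_le h1 with h2 | h2
  · rw [if_pos h2.symm]
    simp only [merge, insertP]
    split_ifs <;> first
      | omega
      | rfl
      | exact hpr _
  rw [if_neg (by omega)]
  rcases Nat.eq_or_lt_of_le (show i ≤ j by omega) with h3 | h3
  · rw [if_pos h3.symm]
    simp only [merge, insertP]
    split_ifs <;> first
      | omega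
      | rfl
  rw [if_neg (by omega)]
  simp only [merge, insertP]
  split_ifs <;> first
    | omega
    | rfl
    | (congr 1; omega)
    | (congr 2; omega)

/-- Multiply the slots below `i` by `p`. -/
noncomputable def cutSlot {n : ℕ} (p : Alg M) (i : Fin (n + 1)) (m : Fin n) :
    Alg M →L[ℂ] Alg M :=
  if (m : ℕ) < i then ContinuousLinearMap.mul ℂ (Alg M) p else ContinuousLinearMap.id ℂ (Alg M)

/-- `p f (p a₀, ..., p aᵢ₋₁, p, aᵢ, ...)`. -/
noncomputable def slot {n : ℕ} (f : Cochain M (n + 1)) (p : Alg M) (i : Fin (n + 1)) :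
    Cochain M n :=
  ((((ContinuousLinearMap.mul ℂ (Alg M) p).compContinuousMultilinearMap f).curryMid i) p
    ).compContinuousLinearMap (cutSlot p i)

theorem slot_apply {n : ℕ} (f : Cochain M (n + 1)) (p : Alg M) (i : Fin (n + 1))
    (A : ℕ → Alg M) : slot f p i (res n A) = p * f (res (n + 1) (insertP p i A)) := by
  simp only [slot, ContinuousMultilinearMap.compContinuousLinearMap_apply,
    ContinuousMultilinearMap.curryMid_apply, ContinuousLinearMap.compContinuousMultilinearMap_coe,
    Function.comp_apply, ContinuousLinearMap.mul_apply']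
  congr 2
  funext m
  induction m using Fin.succAboveCases i with
  | x => simp [res, insertP]
  | p m =>
    rw [Fin.insertNth_apply_succAbove]
    rcases Nat.lt_or_ge (m : ℕ) i with h | h
    · rw [Fin.succAbove_of_castSucc_lt _ _ (by simpa [Fin.lt_def] using h)]
      simp [cutSlot, res, insertP, h]
    · rw [Fin.succAbove_of_le_castSucc _ _ (by simpa [Fin.le_def] using h)]
      simp [cutSlot, res, insertP, Nat.not_lt.2 h, show ¬ (m : ℕ) + 1 < i by omega,
        show ¬ (m : ℕ) + 1 = i by omega]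

theorem hochDiff_add {k : ℕ} (g g' : Cochain M k) (x : Fin (k + 1) → Alg M) :
    hochDiff (g + g') x = hochDiff g x + hochDiff g' x := by
  simp only [hochDiff, add_apply, mul_add, add_mul, smul_add,
    Finset.sum_add_distrib]
  abel

theorem exists_homotopy {n : ℕ} (f : Cochain M (n + 1)) (hf : ∀ a, hochDiff f a = 0)
    (p : Alg M) (hp : p * p = p) (hc : ∀ x, p * x = x * p) :
    ∃ k : Cochain M n, ∀ a, p * f a - p * f (fun i => p * a i) = hochDiff k a := by
  refine ⟨∑ i : Fin (n + 1), (-1 : ℂ) ^ (i : ℕ) • slot f p i, fun a => ?_⟩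
  set A : ℕ → Alg M := fun m => if h : m < n + 1 then a ⟨m, h⟩ else 0 with hA
  have ha : a = res (n + 1) A := by
    funext m
    simp [res, hA, m.is_le]
  -- the values of the homotopy
  have hk : ∀ s : ℕ → Alg M, (∑ i : Fin (n + 1), (-1 : ℂ) ^ (i : ℕ) • slot f p i) (res n s) =
      ∑ i ∈ range (n + 1), (-1 : ℂ) ^ i • (p * f (res (n + 1) (insertP p i s))) := fun s => by
    rw [_root_.sum_apply, ← Fin.sum_univ_eq_sum_range
      (fun i => (-1 : ℂ) ^ i • (p * f (res (n + 1) (insertP p i s))))]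
    simp only [smul_apply, slot_apply]
  set hh : ℕ → Alg M := fun i => p * f (res (n + 1) fun m => if m < i then p * A m else A m)
  set Y : ℕ → ℕ → Alg M := fun i j => p * f (res (n + 1) (insertP p i (merge j A)))
  set F : ℕ → Alg M := fun i => insertP p i A 0 *
    (p * f (res (n + 1) fun m => insertP p i A (m + 1)))
  set L : ℕ → Alg M := fun i => p * f (res (n + 1) (insertP p i A)) * insertP p i A (n + 1)
  -- the cocycle identity at the inserted sequences
  have h0 : ∀ i, F i + ∑ j ∈ range (n + 1), (-1 : ℂ) ^ (j + 1) •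
      (p * f (res (n + 1) (merge j (insertP p i A)))) + (-1 : ℂ) ^ (n + 1 + 1) • L i = 0 := by
    intro i
    have h := congrArg (p * ·) ((hochDiff_res f (insertP p i A)).symm.trans (hf _))
    simp only [mul_add, mul_sum, mul_smul_comm, mul_zero] at h
    simp only [F, L]
    rw [← mul_assoc, ← hc, mul_assoc, mul_assoc p]
    exact h
  have hdouble : ∑ i ∈ range (n + 2), (-1 : ℂ) ^ i • ∑ j ∈ range (n + 1), (-1 : ℂ) ^ (j + 1) •
      (p * f (res (n + 1) (merge j (insertP p i A)))) =
      -∑ i ∈ range (n + 1), (-1 : ℂ) ^ i • ∑ j ∈ range n, (-1 : ℂ) ^ (j + 1) • Y i j := by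
    refine sum_sum_telescope hh Y _ (fun i j => ?_) n
    rw [merge_insertP hp hc]
    split_ifs <;> rfl
  have hF0 : F 0 = hh 0 := by
    simp only [F, hh, insertP]
    simp [← mul_assoc, hp]
  have hFs : ∀ i, F (i + 1) =
      A 0 * (p * f (res (n + 1) (insertP p i fun m => A (m + 1)))) := by
    intro i
    simp only [F]
    rw [show insertP p (i + 1) A 0 = p * A 0 by simp [insertP],
      show (fun m => insertP p (i + 1) A (m + 1)) = insertP p i fun m => A (m + 1) from
        funext fun m => by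
          simp only [insertP]
          split_ifs <;> first | rfl | omega | (congr 1; omega)]
    rw [hc (A 0), mul_assoc, ← mul_assoc p, hp]
  have hL : ∀ i ≤ n, L i = p * f (res (n + 1) (insertP p i A)) * A n := fun i hi => by
    simp [L, insertP, show ¬ n + 1 < i by omega, show ¬ n + 1 = i by omega]
  have hLs : L (n + 1) = hh (n + 1) := by
    simp only [L, hh]
    rw [show insertP p (n + 1) A (n + 1) = p by simp [insertP], mul_assoc, ← hc, ← mul_assoc, hp]
    congr 2
    funext m
    simp [res, insertP, m.2]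
  have hsum := Finset.sum_congr (s₁ := range (n + 2)) rfl
    (fun i _ => congrArg (fun x => (-1 : ℂ) ^ i • x) (h0 i))
  simp only [smul_add, sum_add_distrib, smul_zero, sum_const_zero] at hsum
  have eL : ∑ i ∈ range (n + 1), (-1 : ℂ) ^ i • (-1 : ℂ) ^ (n + 1 + 1) • L i =
      ∑ i ∈ range (n + 1), (-1 : ℂ) ^ i • (-1 : ℂ) ^ (n + 1 + 1) •
        (p * f (res (n + 1) (insertP p i A)) * A n) :=
    sum_congr rfl fun i hi => by rw [hL i (Nat.lt_succ_iff.1 (mem_range.1 hi))]
  rw [hdouble, sum_range_succ' _ (n + 1), sum_range_succ _ (n + 1), hF0, hLs, eL] at hsum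
  simp only [hFs] at hsum
  have hend : hh 0 - hh (n + 1) = p * f a - p * f (fun i => p * a i) := by
    simp only [hh]
    congr 3
    · rw [ha]; funext m; simp [res]
    · rw [ha]; funext m; simp [res, m.2]
  rw [← hend, ha, hochDiff_res]
  simp only [hk, Y, mul_sum, sum_mul, mul_smul_comm, smul_mul_assoc, Finset.smul_sum] at hsum ⊢
  have hswap : ∑ j ∈ range n, ∑ i ∈ range (n + 1), (-1 : ℂ) ^ (j + 1) • (-1 : ℂ) ^ i •
      (p * f (res (n + 1) (insertP p i (merge j A)))) =
      ∑ i ∈ range (n + 1), ∑ j ∈ range n, (-1 : ℂ) ^ i • (-1 : ℂ) ^ (j + 1) •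
      (p * f (res (n + 1) (insertP p i (merge j A)))) := by
    rw [sum_comm]
    exact sum_congr rfl fun i _ => sum_congr rfl fun j _ => smul_comm _ _ _
  rw [hswap]
  simp only [pow_succ, pow_zero, one_smul, mul_neg, mul_one, neg_smul, smul_neg,
    sum_neg_distrib, smul_smul, mul_comm ((-1 : ℂ) ^ n), neg_neg, ← pow_add] at hsum ⊢
  have hsq : (-1 : ℂ) * (-1) ^ n * (-1 * (-1) ^ n) = 1 := by
    rw [mul_mul_mul_comm, ← mul_pow, neg_one_mul, neg_neg, one_pow, one_mul]
  have hcm : ∀ x : ℕ, (-1 : ℂ) ^ x * (-1 * (-1) ^ n) = -1 * (-1) ^ n * (-1) ^ x := fun x =>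
    mul_comm _ _
  simp only [hsq, one_smul, hcm] at hsum
  linear_combination (norm := module) hsum

end Vale.Agent.P082.Central
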