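import Vale.Agent.P082.Central.Corner
import Vale.Agent.P082.Central.Homotopy

/-!
# P082: cocycles reduce to the summand without type II₁ part
-/

namespace Vale.Agent.P082.Central

universe u

variable {H : Type u} [NormedAddCommGroup H] [InnerProductSpace ℂ H] [CompleteSpace H]
variable {M : VonNeumannAlgebra H} {z : H →L[ℂ] H}

theorem hasNormalTraces_cAlg (h : IsTypeIIOneSummand M z) :
    Scope.HasNormalTraces (cAlg h.proj M) := by
  intro T hT hT0
  have hne : ext h.proj T ≠ 0 := fun h0 => hT0 (by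
    rw [← restr_ext h.proj T, h0]
    exact ContinuousLinearMap.ext fun v => Subtype.ext (by simp [coe_restr_apply]))
  obtain ⟨ξ, hs, htr, n, hn⟩ :=
    h.traces _ (ext_mem h.proj h.mem hT) (mul_ext h.proj T) hne
  refine ⟨fun n => toC h.proj (ξ n), ?_, fun X hX => ?_, n, fun h0 => hn ?_⟩
  · exact hs.of_nonneg_of_le (fun n => sq_nonneg _)
      fun n => pow_le_pow_left₀ (norm_nonneg _) (norm_toC_le h.proj _) 2
  · have := htr _ (ext_mem h.proj h.mem hX)
    rw [star_ext h.proj] at this
    exact this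
  · rw [ext_apply, h0]
    rfl

theorem noAbelianProjection_cAlg (h : IsTypeIIOneSummand M z) :
    Scope.NoAbelianProjection (cAlg h.proj M) := by
  intro P hP hPp hP0
  have hp : IsStarProjection (ext h.proj P) :=
    ⟨by rw [IsIdempotentElem, ← ext_mul, hPp.isIdempotentElem.eq],
      by rw [IsSelfAdjoint, star_ext, hPp.isSelfAdjoint.star_eq]⟩
  obtain ⟨x, hx, y, hy, hne⟩ := h.noAbelian _ (ext_mem h.proj h.mem hP) hp (mul_ext h.proj P)
    fun h0 => hP0 (by
      rw [← restr_ext h.proj P, h0]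
      exact ContinuousLinearMap.ext fun v => Subtype.ext (by simp [coe_restr_apply]))
  refine ⟨_, restr_mem h.proj h.mem h.central hx, _, restr_mem h.proj h.mem h.central hy,
    fun he => hne ?_⟩
  have e : ∀ x ∈ M, ext h.proj (P * restr h.proj x * P) =
      ext h.proj P * x * ext h.proj P := fun x hx => by
    rw [ext_mul, ext_mul, ext_restr h.proj (h.central x hx), ← mul_assoc (ext h.proj P) z x,
      ← h.central _ (ext_mem h.proj h.mem hP), mul_ext]
  rw [← e x hx, ← e y hy, ← ext_mul, ← ext_mul, he]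

/-- Restriction to the summand, linearly. -/
noncomputable def downL (h : IsTypeIIOneSummand M z) : Alg M →ₗ[ℂ] Alg (cAlg h.proj M) where
  toFun x := ⟨restr h.proj x.1, restr_mem h.proj h.mem h.central x.2⟩
  map_add' x y := Subtype.ext (restr_add h.proj x.1 y.1)
  map_smul' c x := Subtype.ext (restr_smul h.proj c x.1)

/-- Restriction to the summand. -/
noncomputable def down (h : IsTypeIIOneSummand M z) : Alg M →L[ℂ] Alg (cAlg h.proj M) :=
  (downL h).mkContinuous 1 fun x => (norm_restr_le h.proj x.1).trans_eq (one_mul ‖x.1‖).symm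

/-- Inclusion of the summand, linearly. -/
noncomputable def upL (h : IsTypeIIOneSummand M z) : Alg (cAlg h.proj M) →ₗ[ℂ] Alg M where
  toFun T := ⟨ext h.proj T.1, ext_mem h.proj h.mem T.2⟩
  map_add' S T := Subtype.ext (ext_add h.proj S.1 T.1)
  map_smul' c T := Subtype.ext (ext_smul h.proj c T.1)

/-- Inclusion of the summand. -/
noncomputable def up (h : IsTypeIIOneSummand M z) : Alg (cAlg h.proj M) →L[ℂ] Alg M :=
  (upL h).mkContinuous 1 fun T => (norm_ext_le h.proj T.1).trans_eq (one_mul ‖T.1‖).symm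

theorem down_up (h : IsTypeIIOneSummand M z) (T : Alg (cAlg h.proj M)) : down h (up h T) = T :=
  Subtype.ext (restr_ext h.proj _)

theorem up_down (h : IsTypeIIOneSummand M z) (x : Alg M) :
    up h (down h x) = ⟨z, h.mem⟩ * x :=
  Subtype.ext (ext_restr h.proj (h.central _ x.2))

theorem down_mul (h : IsTypeIIOneSummand M z) (x y : Alg M) :
    down h (x * y) = down h x * down h y :=
  Subtype.ext (restr_mul h.proj (h.central _ x.2) _)

theorem up_mul (h : IsTypeIIOneSummand M z) (S T : Alg (cAlg h.proj M)) :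
    up h (S * T) = up h S * up h T :=
  Subtype.ext (ext_mul h.proj _ _)

theorem z_mul_up (h : IsTypeIIOneSummand M z) (T : Alg (cAlg h.proj M)) :
    ⟨z, h.mem⟩ * up h T = up h T :=
  Subtype.ext (mul_ext h.proj _)

theorem contractNth_map {α β : Type*} [Mul α] [Mul β] {k : ℕ} (d : α → β)
    (hd : ∀ x y, d (x * y) = d x * d y) (j : Fin (k + 1)) (A : Fin (k + 1) → α) :
    (fun i => d (Fin.contractNth j (· * ·) A i)) =
      Fin.contractNth j (· * ·) fun i => d (A i) := by
  funext i
  simp only [Fin.contractNth]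
  split_ifs <;> simp [hd]

/-- A vanishing corner, given by a pair of multiplicative maps. -/
theorem exists_corner_part {K : Type u} [NormedAddCommGroup K] [InnerProductSpace ℂ K]
    [CompleteSpace K] {N : VonNeumannAlgebra K} {n : ℕ} (D : Alg M →L[ℂ] Alg N)
    (U : Alg N →L[ℂ] Alg M) (hD : ∀ x y, D (x * y) = D x * D y)
    (hU : ∀ x y, U (x * y) = U x * U y) (hDU : ∀ T, D (U T) = T) (p : Alg M)
    (hUD : ∀ x, U (D x) = p * x) (hpU : ∀ T, p * U T = U T) (hpc : ∀ x, p * x = x * p)
    (hN : Vanishes N n) (f : Cochain M (n + 1)) (hf : ∀ a, hochDiff f a = 0) :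
    ∃ g : Cochain M n, ∀ a, p * f (fun i => p * a i) = hochDiff g a := by
  set F : Cochain N (n + 1) :=
    D.compContinuousMultilinearMap (f.compContinuousLinearMap fun _ => U)
  have hFv : ∀ A, F A = D (f fun i => U (A i)) := fun A => rfl
  have hFd : ∀ A, hochDiff F A = D (hochDiff f fun i => U (A i)) := by
    intro A
    simp only [hochDiff, hFv, map_add, map_sum, map_smul, hD, hDU, contractNth_map _ hU]
    rfl
  obtain ⟨G, hG⟩ := hN F fun A => by rw [hFd, hf, map_zero]
  refine ⟨U.compContinuousMultilinearMap (G.compContinuousLinearMap fun _ => D), fun a => ?_⟩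
  have hl : ∀ a T, p * a * U T = a * U T := fun a T => by rw [hpc, mul_assoc, hpU]
  have hr : ∀ a T, U T * (p * a) = U T * a := fun a T => by rw [← mul_assoc, ← hpc, hpU]
  have h1 := congrArg U (hG fun i => D (a i))
  simp only [hFv, hUD] at h1
  rw [h1]
  simp only [hochDiff, map_add, map_sum, map_smul, hU, hUD,
    ContinuousLinearMap.compContinuousMultilinearMap_coe, Function.comp_apply,
    ContinuousMultilinearMap.compContinuousLinearMap_apply, contractNth_map _ hD, hl, hr]
  rfl

/-- Modulo a coboundary, a cocycle only lives outside a type II₁ summand. -/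
theorem exists_reduce
    (hII : ∀ (K : Type u) [NormedAddCommGroup K] [InnerProductSpace ℂ K] [CompleteSpace K]
      (N : VonNeumannAlgebra K), Scope.HasNormalTraces N → Scope.NoAbelianProjection N →
        ∀ n, Vanishes N n)
    (h : IsTypeIIOneSummand M z) {n : ℕ} (f : Cochain M (n + 1)) (hf : ∀ a, hochDiff f a = 0) :
    ∃ g : Cochain M n, ∀ a, f a = hochDiff g a +
      (1 - ⟨z, h.mem⟩) * f (fun i => (1 - ⟨z, h.mem⟩) * a i) := by
  have hp : (⟨z, h.mem⟩ : Alg M) * ⟨z, h.mem⟩ = ⟨z, h.mem⟩ :=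
    Subtype.ext h.proj.isIdempotentElem.eq
  have hpc : ∀ x : Alg M, (⟨z, h.mem⟩ : Alg M) * x = x * ⟨z, h.mem⟩ :=
    fun x => Subtype.ext (h.central _ x.2)
  obtain ⟨g₀, key⟩ := exists_corner_part (down h) (up h) (down_mul h) (up_mul h) (down_up h)
    ⟨z, h.mem⟩ (up_down h) (z_mul_up h) hpc
    (hII _ _ (hasNormalTraces_cAlg h) (noAbelianProjection_cAlg h) n) f hf
  generalize (⟨z, h.mem⟩ : Alg M) = p at hp hpc key ⊢
  obtain ⟨k₁, hk₁⟩ := exists_homotopy f hf p hp hpc
  obtain ⟨k₂, hk₂⟩ := exists_homotopy f hf (1 - p)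
    (by rw [sub_mul, one_mul, mul_sub, mul_one, hp, sub_self, sub_zero])
    fun x => by rw [sub_mul, one_mul, mul_sub, mul_one, hpc]
  refine ⟨g₀ + k₁ + k₂, fun a => ?_⟩
  rw [hochDiff_add, hochDiff_add, ← key, ← hk₁, ← hk₂, sub_mul, one_mul, sub_mul, one_mul]
  abel

end Vale.Agent.P082.Central
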