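import Vale.Agent.P082.Assembly
import Vale.Agent.P082.Bridge
import Vale.Agent.P082.Val.Main
import Vale.Agent.P082.Central.Main
import Vale.Agent.P082.Central.Exists

/-!
# P082: every cocycle lives, up to a coboundary, outside the type II₁ summand
-/

namespace Vale.Agent.P082.Central

open Statement

universe u

variable {H : Type u} [NormedAddCommGroup H] [InnerProductSpace ℂ H] [CompleteSpace H]
variable {M : VonNeumannAlgebra H}

/-- The reduction for operator cochains. -/
theorem exists_reduce_operators
    (hII : ∀ (K : Type u) [NormedAddCommGroup K] [InnerProductSpace ℂ K] [CompleteSpace K]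
      (N : VonNeumannAlgebra K), Scope.HasNormalTraces N → Scope.NoAbelianProjection N →
        ∀ n, Vanishes N n)
    {z : H →L[ℂ] H} (hz : IsTypeIIOneSummand M z) {n : ℕ}
    {f : (Fin (n + 1) → H →L[ℂ] H) → H →L[ℂ] H} (hf : IsCochain M f)
    (hd : ∀ a, InM M a → diff f a = 0) :
    ∃ g : (Fin n → H →L[ℂ] H) → H →L[ℂ] H, IsCochain M g ∧
      ∀ a, InM M a → f a = diff g a + (1 - z) * f (fun i => (1 - z) * a i) := by
  obtain ⟨g, hg⟩ := exists_reduce hII hz (ofOperators hf) fun a => Subtype.ext <| by
    rw [← coe_hochDiff (ofOperators hf) (fun v => (ofOperators_apply hf v).symm) a]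
    exact hd _ (inM_coe a)
  refine ⟨toOperators g, isCochain_toOperators g, fun a ha => ?_⟩
  obtain ⟨v, rfl⟩ := exists_coe ha
  rw [coe_hochDiff g (fun w => toOperators_coe g w) v]
  exact congrArg (fun x : M.toStarSubalgebra => (x : H →L[ℂ] H)) (hg v)

/-- Type II₁ algebras have vanishing cohomology, and in every von Neumann algebra cocycles reduce
to the complement of the largest type II₁ summand. -/
theorem kadison_ringrose :
    ∀ (H : Type u) [NormedAddCommGroup H] [InnerProductSpace ℂ H] [CompleteSpace H]
      (M : VonNeumannAlgebra H),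
      (Scope.HasNormalTraces M → Scope.NoAbelianProjection M → CohomologyVanishes M) ∧
      ∃ p, IsTypeIIOneSummand M p ∧ (∀ w, IsTypeIIOneSummand M w → w * p = w) ∧
        ∀ (n : ℕ) (f : (Fin (n + 1) → H →L[ℂ] H) → H →L[ℂ] H), IsCochain M f →
          (∀ a, InM M a → diff f a = 0) →
            ∃ g : (Fin n → H →L[ℂ] H) → H →L[ℂ] H, IsCochain M g ∧
              ∀ a, InM M a → f a = diff g a + (1 - p) * f (fun i => (1 - p) * a i) := by
  intro H _ _ _ M
  refine ⟨fun hT hC => cohomologyVanishes_of (vanishes_of_val Val.stmtVal M hT hC), ?_⟩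
  obtain ⟨z, hz, hmax⟩ := exists_max_summand M
  exact ⟨z, hz, hmax, fun n f hf hd => exists_reduce_operators
    (fun K _ _ _ N hT hC n => vanishes_of_val Val.stmtVal N hT hC n) hz hf hd⟩

end Vale.Agent.P082.Central
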